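import Vale.Agent.P050.R2.H774.Marg2
import Vale.Agent.P050.R2.H625.CountG
import Vale.Agent.P050.R2.H15.Cyc
import Vale.Agent.P050.R2.H559.Phig

set_option linter.all false

/-!
Dense targets, module M9b: the estimate of the marginals (final form).
-/

open MeasureTheory Finset

namespace Vale.Agent.P050.Dense

open Vale.Agent.P050

variable {V : Type*} [Fintype V] [DecidableEq V] {Ω : Type*} [MeasurableSpace Ω]
variable (μ : Measure Ω) [IsProbabilityMeasure μ] {U : Sym2 Ω → ℝ} {κ η : ℝ}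

/-- M9b: the estimate of the marginals -/
theorem marg_le {N : V → Finset V} {B : Finset V} {D : ℕ} (hN : Bip N B D) (hU : Ker μ U κ η)
    {σ : ℝ} (hn : Num D κ η σ) (hσ : 0 < σ) (hσD : σ * (10 ^ 8 * D ^ 10) ≤ 1)
    {g : Ω → ℝ} (hgm : BM g) (hg0 : ∫ s, g s ∂μ = 0) :
    ∑ a ∈ univ \ B, D * (ZZg μ U N g a B / ZZ μ U N B) ^ 2 ≤
      1 / 4 * GG μ U N B (2 * σ * ((D:ℝ) ^ 2 + 1)) * ∫ s, g s ^ 2 ∂μ := by
  refine Marg.marg_le_of μ hN hU hn hσ hσD hgm ?_ ?_ ?_ ?_ ?_ ?_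
  · intro x y hx hy hxy T
    exact count_meet (BG N) B (D ^ 2) (BG_card hN) x y hx hy hxy T
  · intro x y hx hy hxy C hC hCB
    exact count_super (BG N) B (D ^ 2) (BG_card hN) x y hx hy hxy C hC hCB
  · intro γ hγ hc
    exact exists_cycP hN hγ hc
  · intro γ hγ k h
    exact CycP.cn hN hγ h
  · intro a ha γ hγ k hk hg
    exact phig_bound μ hN hU hn hσ hγ hk hg hgm hg0 ha
  · intro a ha γ hγ hac
    exact phig_eq_zero μ hN hU hγ hac hgm hg0 ha

end Vale.Agent.P050.Dense
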