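import Vale.Agent.P050.R2.H300.Defs

set_option linter.all false

/-!
Dense targets, module M9b: the core of the estimate of the marginals.
-/

open MeasureTheory Finset

namespace Vale.Agent.P050.Dense

open Vale.Agent.P050

namespace Marg

section core

variable {V : Type*} [Fintype V] [DecidableEq V]

theorem mem_cnS {G : SimpleGraph V} {B : Finset V} {P : Finset V → Prop} {γ : Finset V} :
    γ ∈ cnS G B P ↔ γ ⊆ B ∧ Cn G γ ∧ P γ := by
  unfold cnS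
  simp only [mem_filter, mem_powerset]

/-- numbers: `x = 1 / (200 D ^ 2)` -/
theorem num_x {D : ℕ} (hD : 1 ≤ D) {σ : ℝ} (hσ : 0 < σ) (hσD : σ * (10 ^ 8 * (D : ℝ) ^ 10) ≤ 1) :
    4 * (D : ℝ) ^ 4 * σ * Real.exp (3 * (2 * σ * ((D : ℝ) ^ 2 + 1))) ≤
      (1 / (200 * (D : ℝ) ^ 2)) ^ 3 := by
  have hD1 : (1 : ℝ) ≤ D := by exact_mod_cast hD
  have hD0 : (0 : ℝ) < D := by linarith
  have h2 : (1 : ℝ) ≤ (D : ℝ) ^ 2 := one_le_pow₀ hD1
  have h8 : (1 : ℝ) ≤ (D : ℝ) ^ 8 := one_le_pow₀ hD1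
  have h10 : (D : ℝ) ^ 2 ≤ (D : ℝ) ^ 10 := pow_le_pow_right₀ hD1 (by norm_num)
  have hs : σ * (D : ℝ) ^ 2 ≤ 1 / 10 ^ 8 := by
    have := mul_le_mul_of_nonneg_left h10 hσ.le
    rw [le_div_iff₀ (by positivity)]
    nlinarith
  have hs1 : σ ≤ 1 / 10 ^ 8 := by
    have := mul_le_mul_of_nonneg_left h2 hσ.le
    linarith
  have he : 3 * (2 * σ * ((D : ℝ) ^ 2 + 1)) ≤ 1 / 2 := by
    have : 3 * (2 * σ * ((D : ℝ) ^ 2 + 1)) = 6 * (σ * (D : ℝ) ^ 2) + 6 * σ := by ring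
    rw [this]
    have h1 : (1 : ℝ) / 10 ^ 8 ≤ 1 / 100 := by norm_num
    linarith
  have hexp : Real.exp (3 * (2 * σ * ((D : ℝ) ^ 2 + 1))) ≤ 2 := by
    have h3 : Real.exp (3 * (2 * σ * ((D : ℝ) ^ 2 + 1))) ≤ Real.exp (1 / 2) :=
      Real.exp_le_exp.2 he
    have h4 : Real.exp (1 / 2 : ℝ) ≤ 2 := by
      have h5 : Real.exp (1 / 2 : ℝ) ^ 2 ≤ 2 ^ 2 := by
        rw [← Real.exp_nat_mul]
        have := Real.exp_one_lt_d9
        norm_num
        linarith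
      exact (pow_le_pow_iff_left₀ (Real.exp_pos _).le (by norm_num) (by norm_num)).1 h5
    linarith
  have hkey : 8 * (D : ℝ) ^ 4 * σ ≤ (1 / (200 * (D : ℝ) ^ 2)) ^ 3 := by
    rw [div_pow, one_pow, le_div_iff₀ (by positivity)]
    have : 8 * (D : ℝ) ^ 4 * σ * (200 * (D : ℝ) ^ 2) ^ 3 =
        (64 * 10 ^ 6) * (σ * (D : ℝ) ^ 10) := by ring
    rw [this]
    have h6 : σ * (D : ℝ) ^ 10 ≤ 1 / 10 ^ 8 := by
      rw [le_div_iff₀ (by positivity)]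
      linarith
    linarith
  have h7 : 0 ≤ 4 * (D : ℝ) ^ 4 * σ := by positivity
  calc 4 * (D : ℝ) ^ 4 * σ * Real.exp (3 * (2 * σ * ((D : ℝ) ^ 2 + 1))) ≤
        4 * (D : ℝ) ^ 4 * σ * 2 := mul_le_mul_of_nonneg_left hexp h7
    _ = 8 * (D : ℝ) ^ 4 * σ := by ring
    _ ≤ _ := hkey

theorem num_pow {D : ℕ} (hD : 1 ≤ D) {y : ℝ} (hy0 : 0 ≤ y) (hy : y * (D : ℝ) ^ 2 ≤ 1 / 2) :
    (1 + y) ^ (D ^ 2) ≤ 2 := by
  have h1 : (1 + y) ^ (D ^ 2) ≤ Real.exp (y * (D : ℝ) ^ 2) := by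
    calc (1 + y) ^ (D ^ 2) ≤ (Real.exp y) ^ (D ^ 2) :=
          pow_le_pow_left₀ (by linarith) (by rw [add_comm]; exact Real.add_one_le_exp y) _
      _ = Real.exp (y * (D : ℝ) ^ 2) := by
          rw [← Real.exp_nat_mul]
          congr 1
          push_cast
          ring
  have h4 : Real.exp (1 / 2 : ℝ) ≤ 2 := by
    have h5 : Real.exp (1 / 2 : ℝ) ^ 2 ≤ 2 ^ 2 := by
      rw [← Real.exp_nat_mul]
      have := Real.exp_one_lt_d9
      norm_num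
      linarith
    exact (pow_le_pow_iff_left₀ (Real.exp_pos _).le (by norm_num) (by norm_num)).1 h5
  exact h1.trans ((Real.exp_le_exp.2 hy).trans h4)

/-- the bound of one term -/
theorem term_le {D : ℕ} (hD : 1 ≤ D) {σ : ℝ} (hσ : 0 < σ)
    (hσD : σ * (10 ^ 8 * (D : ℝ) ^ 10) ≤ 1) {n k : ℕ} (hk : 2 ≤ k) (hkn : k ≤ n) :
    Real.exp (2 * σ * ((D : ℝ) ^ 2 + 1) * n) *
      ((2 * (D : ℝ) ^ 2) ^ ((k + 1) / 2) * σ ^ (n - (k + 1) / 2)) ≤
      (1 / (200 * (D : ℝ) ^ 2)) ^ n := by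
  have hD1 : (1 : ℝ) ≤ D := by exact_mod_cast hD
  have hx := num_x hD hσ hσD
  set m := (k + 1) / 2 with hm
  have h3m : 3 * m ≤ 2 * n := by omega
  have hmn : m ≤ n := by omega
  have hσ1 : σ ≤ 1 := by
    have h1 : (1 : ℝ) ≤ 10 ^ 8 * (D : ℝ) ^ 10 := by
      have : (1 : ℝ) ≤ (D : ℝ) ^ 10 := one_le_pow₀ hD1
      linarith
    have := mul_le_mul_of_nonneg_left h1 hσ.le
    linarith
  have h2D : (1 : ℝ) ≤ 2 * (D : ℝ) ^ 2 := by
    have : (1 : ℝ) ≤ (D : ℝ) ^ 2 := one_le_pow₀ hD1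
    linarith
  refine (pow_le_pow_iff_left₀ (by positivity) (by positivity) (n := 3) (by norm_num)).1 ?_
  have e1 : (Real.exp (2 * σ * ((D : ℝ) ^ 2 + 1) * n) *
      ((2 * (D : ℝ) ^ 2) ^ m * σ ^ (n - m))) ^ 3 =
      Real.exp (3 * (2 * σ * ((D : ℝ) ^ 2 + 1))) ^ n *
        ((2 * (D : ℝ) ^ 2) ^ (3 * m) * σ ^ (3 * (n - m))) := by
    rw [mul_pow, mul_pow, ← pow_mul, ← pow_mul, ← Real.exp_nat_mul, ← Real.exp_nat_mul]
    rw [mul_comm m 3, mul_comm (n - m) 3]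
    congr 2
    push_cast
    ring
  rw [e1]
  have e2 : (2 * (D : ℝ) ^ 2) ^ (3 * m) ≤ (2 * (D : ℝ) ^ 2) ^ (2 * n) :=
    pow_le_pow_right₀ h2D h3m
  have e3 : σ ^ (3 * (n - m)) ≤ σ ^ n := pow_le_pow_of_le_one hσ.le hσ1 (by omega)
  calc Real.exp (3 * (2 * σ * ((D : ℝ) ^ 2 + 1))) ^ n *
        ((2 * (D : ℝ) ^ 2) ^ (3 * m) * σ ^ (3 * (n - m))) ≤
        Real.exp (3 * (2 * σ * ((D : ℝ) ^ 2 + 1))) ^ n *
        ((2 * (D : ℝ) ^ 2) ^ (2 * n) * σ ^ n) := by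
        refine mul_le_mul_of_nonneg_left (mul_le_mul e2 e3 (by positivity) (by positivity))
          (by positivity)
    _ = (4 * (D : ℝ) ^ 4 * σ * Real.exp (3 * (2 * σ * ((D : ℝ) ^ 2 + 1)))) ^ n := by
        rw [pow_mul, ← mul_pow, ← mul_pow]
        congr 1
        ring
    _ ≤ ((1 / (200 * (D : ℝ) ^ 2)) ^ 3) ^ n := pow_le_pow_left₀ (by positivity) hx n
    _ = ((1 / (200 * (D : ℝ) ^ 2)) ^ n) ^ 3 := by rw [← pow_mul, ← pow_mul, Nat.mul_comm 3 n]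

open scoped Classical in
theorem card_a {N : V → Finset V} {B : Finset V} {D : ℕ} (hN : Bip N B D) {γ : Finset V}
    (hγ : γ ⊆ B) :
    ((univ \ B).filter (fun a => ¬ Disjoint γ (TT N B a))).card ≤ D * γ.card := by
  have h1 : (univ \ B).filter (fun a => ¬ Disjoint γ (TT N B a)) ⊆ γ.biUnion N := by
    intro a ha
    simp only [mem_filter] at ha
    rw [Finset.not_disjoint_iff] at ha
    obtain ⟨b, hb, hb'⟩ := ha.2
    rw [mem_biUnion]
    refine ⟨b, hb, ?_⟩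
    unfold TT at hb'
    exact (mem_filter.1 hb').2
  calc _ ≤ (γ.biUnion N).card := card_le_card h1
    _ ≤ ∑ b ∈ γ, (N b).card := card_biUnion_le
    _ ≤ ∑ _b ∈ γ, D := sum_le_sum fun b hb => hN.dB b (hγ hb)
    _ = D * γ.card := by rw [sum_const, smul_eq_mul, mul_comm]

/-- the sum over the connected sets which contain a given cycle polymer -/
theorem sum_super {N : V → Finset V} {B : Finset V} {D : ℕ} (hD : 1 ≤ D)
    (H3 : ∀ x y : ℝ, 0 ≤ x → 0 ≤ y → x * (1 + y) ^ (D ^ 2) ≤ y → ∀ C : Finset V, C.Nonempty →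
      C ⊆ B → ∑ γ ∈ cnS (BG N) B (fun γ => C ⊆ γ ∧ C ≠ γ), x ^ (γ.card - C.card) ≤
        (1 + y) ^ (D ^ 2 * C.card) - 1)
    {C : Finset V} (hC : C.Nonempty) (hCB : C ⊆ B) :
    ∑ γ ∈ cnS (BG N) B (fun γ => C ⊆ γ), (D : ℝ) * γ.card * (1 / (200 * (D : ℝ) ^ 2)) ^ γ.card ≤
      D * (1 / (50 * (D : ℝ) ^ 2)) ^ C.card := by
  have hD1 : (1 : ℝ) ≤ D := by exact_mod_cast hD
  have hD0 : (0 : ℝ) < D := by linarith
  set x : ℝ := 1 / (200 * (D : ℝ) ^ 2) with hx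
  have hx0 : 0 < x := by positivity
  have hxD : x * (D : ℝ) ^ 2 = 1 / 200 := by
    rw [hx]
    field_simp
  have hle : ∀ γ ∈ cnS (BG N) B (fun γ => C ⊆ γ), (D : ℝ) * γ.card * x ^ γ.card ≤
      D * ((2 * x) ^ C.card * (2 * x) ^ (γ.card - C.card)) := by
    intro γ hγ
    have hCγ : C ⊆ γ := (mem_cnS.1 hγ).2.2
    have hcard : C.card ≤ γ.card := card_le_card hCγ
    rw [← pow_add, Nat.add_sub_cancel' hcard, mul_pow, mul_assoc]
    refine mul_le_mul_of_nonneg_left (mul_le_mul_of_nonneg_right ?_ (by positivity)) hD0.le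
    exact_mod_cast (Nat.lt_two_pow_self (n := γ.card)).le
  have hsplit : ∑ γ ∈ cnS (BG N) B (fun γ => C ⊆ γ), (2 * x) ^ (γ.card - C.card) ≤
      1 + ∑ γ ∈ cnS (BG N) B (fun γ => C ⊆ γ ∧ C ≠ γ), (2 * x) ^ (γ.card - C.card) := by
    have hsub : cnS (BG N) B (fun γ => C ⊆ γ) ⊆
        insert C (cnS (BG N) B (fun γ => C ⊆ γ ∧ C ≠ γ)) := by
      intro γ hγ
      rw [mem_insert]
      by_cases h : C = γ
      · exact Or.inl h.symm
      · right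
        rw [mem_cnS] at hγ ⊢
        exact ⟨hγ.1, hγ.2.1, hγ.2.2, h⟩
    have hnot : C ∉ cnS (BG N) B (fun γ => C ⊆ γ ∧ C ≠ γ) := fun h =>
      (mem_cnS.1 h).2.2.2 rfl
    calc _ ≤ ∑ γ ∈ insert C (cnS (BG N) B (fun γ => C ⊆ γ ∧ C ≠ γ)),
          (2 * x) ^ (γ.card - C.card) :=
          sum_le_sum_of_subset_of_nonneg hsub fun _ _ _ => by positivity
      _ = _ := by
          rw [sum_insert hnot]
          simp
  have hy1 : (1 + 4 * x) ^ (D ^ 2) ≤ 2 := by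
    refine num_pow hD (by positivity) ?_
    have : 4 * x * (D : ℝ) ^ 2 = 4 * (x * (D : ℝ) ^ 2) := by ring
    rw [this, hxD]
    norm_num
  have hy2 : 2 * x * (1 + 4 * x) ^ (D ^ 2) ≤ 4 * x := by
    have := mul_le_mul_of_nonneg_left hy1 (show 0 ≤ 2 * x by positivity)
    linarith
  have h3 := H3 (2 * x) (4 * x) (by positivity) (by positivity) hy2 C hC hCB
  have hpow : (1 + 4 * x) ^ (D ^ 2 * C.card) ≤ 2 ^ C.card := by
    rw [pow_mul]
    exact pow_le_pow_left₀ (by positivity) hy1 _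
  calc ∑ γ ∈ cnS (BG N) B (fun γ => C ⊆ γ), (D : ℝ) * γ.card * x ^ γ.card ≤
        ∑ γ ∈ cnS (BG N) B (fun γ => C ⊆ γ),
          D * ((2 * x) ^ C.card * (2 * x) ^ (γ.card - C.card)) := sum_le_sum hle
    _ = D * ((2 * x) ^ C.card * ∑ γ ∈ cnS (BG N) B (fun γ => C ⊆ γ),
          (2 * x) ^ (γ.card - C.card)) := by rw [mul_sum, mul_sum]
    _ ≤ D * ((2 * x) ^ C.card * 2 ^ C.card) := by
        refine mul_le_mul_of_nonneg_left (mul_le_mul_of_nonneg_left ?_ (by positivity)) hD0.le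
        linarith
    _ = D * (1 / (50 * (D : ℝ) ^ 2)) ^ C.card := by
        rw [← mul_pow]
        congr 2
        rw [hx]
        field_simp
        norm_num

open scoped Classical in
/-- the core of M9b -/
theorem core {N : V → Finset V} {B : Finset V} {D : ℕ} (hN : Bip N B D) (hD : 1 ≤ D)
    {σ : ℝ} (hσ : 0 < σ) (hσD : σ * (10 ^ 8 * (D : ℝ) ^ 10) ≤ 1)
    (φg : V → Finset V → ℝ) (zg : V → ℝ) (z : ℝ) (hz : 0 < z) (c : ℕ → ℝ) (hc : ∀ k, 0 ≤ c k)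
    (Γ : ℝ) (hΓ : 0 ≤ Γ)
    (H1 : ∀ a ∉ B, |zg a| ≤ z * ∑ γ ∈ cnS (BG N) B (fun γ => ¬ Disjoint γ (TT N B a)),
      Real.exp (2 * σ * ((D : ℝ) ^ 2 + 1) * γ.card) * |φg a γ|)
    (H2 : ∀ x y : ℝ, 0 ≤ x → 0 ≤ y → x * (1 + y) ^ (D ^ 2) ≤ y → ∀ T : Finset V,
      ∑ γ ∈ cnS (BG N) B (fun γ => ¬ Disjoint γ T), x ^ γ.card ≤ T.card * y)
    (H3 : ∀ x y : ℝ, 0 ≤ x → 0 ≤ y → x * (1 + y) ^ (D ^ 2) ≤ y → ∀ C : Finset V, C.Nonempty →
      C ⊆ B → ∑ γ ∈ cnS (BG N) B (fun γ => C ⊆ γ ∧ C ≠ γ), x ^ (γ.card - C.card) ≤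
        (1 + y) ^ (D ^ 2 * C.card) - 1)
    (H4 : ∀ γ ⊆ B, ¬ (HG N γ).IsAcyclic → ∃ (k : ℕ) (C : Finset V), C ⊆ γ ∧ CycP N C k ∧
      GC N γ k)
    (H5 : ∀ γ ⊆ B, ∀ k, CycP N γ k → Cn (BG N) γ)
    (H6 : ∀ a ∉ B, ∀ γ ⊆ B, ∀ k, 2 ≤ k → GC N γ k → |φg a γ| ≤
      (2 * (D : ℝ) ^ 2) ^ ((k + 1) / 2) * σ ^ (γ.card - (k + 1) / 2) * Real.sqrt (c k) * Γ)
    (H7 : ∀ a ∉ B, ∀ γ ⊆ B, (HG N γ).IsAcyclic → φg a γ = 0) :
    ∑ a ∈ univ \ B, (D : ℝ) * (zg a / z) ^ 2 ≤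
      1 / 4 * (∑ γ ∈ cnS (BG N) B (fun γ => CycP N γ γ.card),
        Real.exp (-(2 * σ * ((D : ℝ) ^ 2 + 1) * γ.card)) * c γ.card) * Γ ^ 2 := by
  have hD1 : (1 : ℝ) ≤ D := by exact_mod_cast hD
  have hD0 : (0 : ℝ) < D := by linarith
  set x : ℝ := 1 / (200 * (D : ℝ) ^ 2) with hx
  have hx0 : 0 < x := by positivity
  have hxD : x * (D : ℝ) ^ 2 = 1 / 200 := by
    rw [hx]
    field_simp
  set CY := cnS (BG N) B (fun γ => CycP N γ γ.card) with hCY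
  set cc : Finset V → ℝ := fun γ => ∑ C ∈ CY.filter (fun C => C ⊆ γ), c C.card with hcc
  have hcc0 : ∀ γ, 0 ≤ cc γ := fun γ => sum_nonneg fun _ _ => hc _
  -- one term
  have hterm : ∀ a ∉ B, ∀ γ ⊆ B,
      Real.exp (2 * σ * ((D : ℝ) ^ 2 + 1) * γ.card) * |φg a γ| ≤
        x ^ γ.card * Real.sqrt (cc γ) * Γ := by
    intro a ha γ hγ
    by_cases hac : (HG N γ).IsAcyclic
    · rw [H7 a ha γ hγ hac, abs_zero, mul_zero]
      positivity
    · obtain ⟨k, C, hCγ, hCk, hg⟩ := H4 γ hγ hac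
      have hk : 2 ≤ k := hCk.1
      have hCcard : C.card = k := hCk.2.1
      have hkn : k ≤ γ.card := hCcard ▸ card_le_card hCγ
      have h6 := H6 a ha γ hγ k hk hg
      have hmem : C ∈ CY.filter (fun C => C ⊆ γ) := by
        rw [mem_filter]
        refine ⟨?_, hCγ⟩
        rw [hCY, mem_cnS]
        refine ⟨hCγ.trans hγ, H5 C (hCγ.trans hγ) k hCk, ?_⟩
        rw [hCcard]
        exact hCk
      have hck : c k ≤ cc γ := by
        have := single_le_sum (f := fun C : Finset V => c C.card) (fun C _ => hc C.card) hmem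
        rw [hcc]
        simpa only [hCcard] using this
      have hsq : Real.sqrt (c k) ≤ Real.sqrt (cc γ) := Real.sqrt_le_sqrt hck
      have ht := term_le hD hσ hσD hk hkn
      rw [← hx] at ht
      calc Real.exp (2 * σ * ((D : ℝ) ^ 2 + 1) * γ.card) * |φg a γ| ≤
            Real.exp (2 * σ * ((D : ℝ) ^ 2 + 1) * γ.card) *
            ((2 * (D : ℝ) ^ 2) ^ ((k + 1) / 2) * σ ^ (γ.card - (k + 1) / 2) *
              Real.sqrt (c k) * Γ) := mul_le_mul_of_nonneg_left h6 (Real.exp_pos _).le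
        _ = Real.exp (2 * σ * ((D : ℝ) ^ 2 + 1) * γ.card) *
            ((2 * (D : ℝ) ^ 2) ^ ((k + 1) / 2) * σ ^ (γ.card - (k + 1) / 2)) *
              (Real.sqrt (c k) * Γ) := by ring
        _ ≤ x ^ γ.card * (Real.sqrt (cc γ) * Γ) := by
            refine mul_le_mul ht (mul_le_mul_of_nonneg_right hsq hΓ) (by positivity)
              (by positivity)
        _ = x ^ γ.card * Real.sqrt (cc γ) * Γ := by ring
  -- the numbers of `count_meet`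
  have hy1 : (1 + 2 * x) ^ (D ^ 2) ≤ 2 := by
    refine num_pow hD (by positivity) ?_
    have : 2 * x * (D : ℝ) ^ 2 = 2 * (x * (D : ℝ) ^ 2) := by ring
    rw [this, hxD]
    norm_num
  have hy2 : x * (1 + 2 * x) ^ (D ^ 2) ≤ 2 * x := by
    have := mul_le_mul_of_nonneg_left hy1 hx0.le
    linarith
  -- the square, for one `a`
  have hone : ∀ a ∉ B, (D : ℝ) * (zg a / z) ^ 2 ≤ (1 / 100) * Γ ^ 2 *
      ∑ γ ∈ cnS (BG N) B (fun γ => ¬ Disjoint γ (TT N B a)), x ^ γ.card * cc γ := by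
    intro a ha
    set S := cnS (BG N) B (fun γ => ¬ Disjoint γ (TT N B a)) with hS
    have h1 : |zg a / z| ≤ Γ * ∑ γ ∈ S, x ^ γ.card * Real.sqrt (cc γ) := by
      rw [abs_div, abs_of_pos hz, div_le_iff₀ hz]
      refine (H1 a ha).trans ?_
      rw [← hS, mul_comm z]
      refine mul_le_mul_of_nonneg_right ?_ hz.le
      rw [mul_sum]
      refine sum_le_sum fun γ hγ => ?_
      refine (hterm a ha γ (mem_cnS.1 hγ).1).trans (le_of_eq ?_)
      ring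
    have h2 : (∑ γ ∈ S, x ^ γ.card * Real.sqrt (cc γ)) ^ 2 ≤
        (∑ γ ∈ S, x ^ γ.card) * ∑ γ ∈ S, x ^ γ.card * cc γ := by
      have h := sum_mul_sq_le_sq_mul_sq S (fun γ => Real.sqrt (x ^ γ.card))
        (fun γ => Real.sqrt (x ^ γ.card) * Real.sqrt (cc γ))
      have e1 : ∀ γ ∈ S, Real.sqrt (x ^ γ.card) * (Real.sqrt (x ^ γ.card) * Real.sqrt (cc γ)) =
          x ^ γ.card * Real.sqrt (cc γ) := by
        intro γ _
        rw [← mul_assoc, Real.mul_self_sqrt (by positivity)]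
      have e2 : ∀ γ ∈ S, Real.sqrt (x ^ γ.card) ^ 2 = x ^ γ.card := by
        intro γ _
        rw [Real.sq_sqrt (by positivity)]
      have e3 : ∀ γ ∈ S, (Real.sqrt (x ^ γ.card) * Real.sqrt (cc γ)) ^ 2 = x ^ γ.card * cc γ := by
        intro γ _
        rw [mul_pow, Real.sq_sqrt (by positivity), Real.sq_sqrt (hcc0 γ)]
      rw [sum_congr rfl e1, sum_congr rfl e2, sum_congr rfl e3] at h
      exact h
    have h3 : ∑ γ ∈ S, x ^ γ.card ≤ D * (2 * x) := by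
      refine (H2 x (2 * x) hx0.le (by positivity) hy2 (TT N B a)).trans ?_
      refine mul_le_mul_of_nonneg_right ?_ (by positivity)
      exact_mod_cast hN.dA a
    have h4 : 0 ≤ ∑ γ ∈ S, x ^ γ.card * cc γ :=
      sum_nonneg fun γ _ => mul_nonneg (by positivity) (hcc0 γ)
    have h5 : (zg a / z) ^ 2 ≤ Γ ^ 2 * ((D * (2 * x)) * ∑ γ ∈ S, x ^ γ.card * cc γ) := by
      rw [← sq_abs]
      calc |zg a / z| ^ 2 ≤ (Γ * ∑ γ ∈ S, x ^ γ.card * Real.sqrt (cc γ)) ^ 2 :=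
            pow_le_pow_left₀ (abs_nonneg _) h1 2
        _ = Γ ^ 2 * (∑ γ ∈ S, x ^ γ.card * Real.sqrt (cc γ)) ^ 2 := by ring
        _ ≤ Γ ^ 2 * ((∑ γ ∈ S, x ^ γ.card) * ∑ γ ∈ S, x ^ γ.card * cc γ) :=
            mul_le_mul_of_nonneg_left h2 (sq_nonneg _)
        _ ≤ _ := mul_le_mul_of_nonneg_left (mul_le_mul_of_nonneg_right h3 h4) (sq_nonneg _)
    calc (D : ℝ) * (zg a / z) ^ 2 ≤
          D * (Γ ^ 2 * ((D * (2 * x)) * ∑ γ ∈ S, x ^ γ.card * cc γ)) :=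
          mul_le_mul_of_nonneg_left h5 hD0.le
      _ = 2 * (x * (D : ℝ) ^ 2) * Γ ^ 2 * ∑ γ ∈ S, x ^ γ.card * cc γ := by ring
      _ = _ := by rw [hxD]; norm_num
  -- the sum over `a`
  have hall : ∑ a ∈ univ \ B, ∑ γ ∈ cnS (BG N) B (fun γ => ¬ Disjoint γ (TT N B a)),
      x ^ γ.card * cc γ ≤ ∑ γ ∈ cnS (BG N) B (fun _ => True), (D * γ.card : ℝ) *
        (x ^ γ.card * cc γ) := by
    have e1 : ∀ a ∈ univ \ B, ∑ γ ∈ cnS (BG N) B (fun γ => ¬ Disjoint γ (TT N B a)),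
        x ^ γ.card * cc γ = ∑ γ ∈ cnS (BG N) B (fun _ => True),
          if ¬ Disjoint γ (TT N B a) then x ^ γ.card * cc γ else 0 := by
      intro a _
      rw [← sum_filter]
      refine sum_congr ?_ fun _ _ => rfl
      ext γ
      simp only [mem_cnS, mem_filter, and_true]
      tauto
    rw [sum_congr rfl e1, sum_comm]
    refine sum_le_sum fun γ hγ => ?_
    rw [← sum_filter, sum_const, nsmul_eq_mul]
    refine mul_le_mul_of_nonneg_right ?_ (mul_nonneg (by positivity) (hcc0 γ))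
    have := card_a hN (mem_cnS.1 hγ).1
    exact_mod_cast this
  -- exchange the sums over `γ` and `C`
  have hex : ∑ γ ∈ cnS (BG N) B (fun _ => True), (D * γ.card : ℝ) * (x ^ γ.card * cc γ) =
      ∑ C ∈ CY, c C.card * ∑ γ ∈ cnS (BG N) B (fun γ => C ⊆ γ), (D : ℝ) * γ.card * x ^ γ.card := by
    have e1 : ∀ γ ∈ cnS (BG N) B (fun _ => True), (D * γ.card : ℝ) * (x ^ γ.card * cc γ) =
        ∑ C ∈ CY, if C ⊆ γ then c C.card * ((D : ℝ) * γ.card * x ^ γ.card) else 0 := by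
      intro γ _
      rw [← sum_filter, ← sum_mul, hcc]
      ring
    rw [sum_congr rfl e1, sum_comm]
    refine sum_congr rfl fun C _ => ?_
    rw [← sum_filter, mul_sum]
    refine sum_congr ?_ fun _ _ => rfl
    ext γ
    simp only [mem_cnS, mem_filter, and_true]
    tauto
  have hfin : ∀ C ∈ CY, c C.card * ∑ γ ∈ cnS (BG N) B (fun γ => C ⊆ γ),
      (D : ℝ) * γ.card * x ^ γ.card ≤
      Real.exp (-(2 * σ * ((D : ℝ) ^ 2 + 1) * C.card)) * c C.card := by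
    intro C hC
    obtain ⟨hCB, -, hCk⟩ := mem_cnS.1 hC
    have hk : 2 ≤ C.card := hCk.1
    have hne : C.Nonempty := card_pos.1 (by omega)
    have h1 := sum_super hD H3 hne hCB
    rw [← hx] at h1
    rw [mul_comm]
    refine mul_le_mul_of_nonneg_right (h1.trans ?_) (hc _)
    have h2 : (D : ℝ) ≤ (D : ℝ) ^ C.card := by
      calc (D : ℝ) = (D : ℝ) ^ 1 := (pow_one _).symm
        _ ≤ _ := pow_le_pow_right₀ hD1 (by omega)
    have h3 : (D : ℝ) * (1 / (50 * (D : ℝ) ^ 2)) ^ C.card ≤ (1 / 50) ^ C.card := by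
      calc (D : ℝ) * (1 / (50 * (D : ℝ) ^ 2)) ^ C.card ≤
            (D : ℝ) ^ C.card * (1 / (50 * (D : ℝ) ^ 2)) ^ C.card :=
            mul_le_mul_of_nonneg_right h2 (by positivity)
        _ = (1 / (50 * (D : ℝ))) ^ C.card := by
            rw [← mul_pow]
            congr 1
            field_simp
        _ ≤ _ := by
            refine pow_le_pow_left₀ (by positivity) ?_ _
            exact one_div_le_one_div_of_le (by norm_num) (by linarith)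
    refine h3.trans ?_
    have h4 : Real.exp (-(2 * σ * ((D : ℝ) ^ 2 + 1) * C.card)) =
        Real.exp (-(2 * σ * ((D : ℝ) ^ 2 + 1))) ^ C.card := by
      rw [← Real.exp_nat_mul]
      congr 1
      ring
    rw [h4]
    refine pow_le_pow_left₀ (by norm_num) ?_ _
    have h5 : 2 * σ * ((D : ℝ) ^ 2 + 1) ≤ 1 / 2 := by
      have h2' : (1 : ℝ) ≤ (D : ℝ) ^ 2 := one_le_pow₀ hD1
      have h10 : (D : ℝ) ^ 2 ≤ (D : ℝ) ^ 10 := pow_le_pow_right₀ hD1 (by norm_num)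
      have hs : σ * (D : ℝ) ^ 2 ≤ σ * (D : ℝ) ^ 10 := mul_le_mul_of_nonneg_left h10 hσ.le
      have hs1 : σ ≤ σ * (D : ℝ) ^ 2 := by
        have := mul_le_mul_of_nonneg_left h2' hσ.le
        linarith
      nlinarith
    have h6 := Real.add_one_le_exp (-(2 * σ * ((D : ℝ) ^ 2 + 1)))
    linarith
  have hGG : 0 ≤ ∑ γ ∈ CY, Real.exp (-(2 * σ * ((D : ℝ) ^ 2 + 1) * γ.card)) * c γ.card :=
    sum_nonneg fun γ _ => mul_nonneg (Real.exp_pos _).le (hc _)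
  calc ∑ a ∈ univ \ B, (D : ℝ) * (zg a / z) ^ 2 ≤
        ∑ a ∈ univ \ B, (1 / 100) * Γ ^ 2 *
          ∑ γ ∈ cnS (BG N) B (fun γ => ¬ Disjoint γ (TT N B a)), x ^ γ.card * cc γ :=
        sum_le_sum fun a ha => hone a (mem_sdiff.1 ha).2
    _ = (1 / 100) * Γ ^ 2 * ∑ a ∈ univ \ B,
          ∑ γ ∈ cnS (BG N) B (fun γ => ¬ Disjoint γ (TT N B a)), x ^ γ.card * cc γ := by
        rw [mul_sum]
    _ ≤ (1 / 100) * Γ ^ 2 * ∑ C ∈ CY,
          Real.exp (-(2 * σ * ((D : ℝ) ^ 2 + 1) * C.card)) * c C.card := by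
        refine mul_le_mul_of_nonneg_left ?_ (by positivity)
        refine hall.trans ?_
        rw [hex]
        exact sum_le_sum hfin
    _ ≤ _ := by
        have := mul_nonneg hGG (sq_nonneg Γ)
        nlinarith

end core

end Marg

end Vale.Agent.P050.Dense
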