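import Vale.Agent.P050.R2.H774.Marg
import Vale.Agent.P050.R2.H998.GasPlan
import Vale.Agent.P050.R2.H234.Gas

set_option linter.all false

/-!
Dense targets, module M9b: the estimate of the marginals.
-/

open MeasureTheory Finset

namespace Vale.Agent.P050.Dense

open Vale.Agent.P050

namespace Marg

variable {V : Type*} [Fintype V] [DecidableEq V] {Ω : Type*} [MeasurableSpace Ω]
variable (μ : Measure Ω) [IsProbabilityMeasure μ] {U : Sym2 Ω → ℝ} {κ η : ℝ}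

theorem clique_TT (N : V → Finset V) (B : Finset V) (a : V) :
    ∀ b ∈ TT N B a, ∀ b' ∈ TT N B a, b ≠ b' → (BG N).Adj b b' := by
  intro b hb b' hb' hne
  unfold TT at hb hb'
  unfold BG
  rw [SimpleGraph.fromRel_adj]
  refine ⟨hne, Or.inl ⟨a, ?_⟩⟩
  rw [mem_inter]
  exact ⟨(mem_filter.1 hb).2, (mem_filter.1 hb').2⟩

theorem notMem_of_disjoint {N : V → Finset V} {B β : Finset V} (hβ : β ⊆ B) {a : V}
    (h : Disjoint β (TT N B a)) : ∀ b ∈ β, a ∉ N b := by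
  intro b hb hab
  refine Finset.disjoint_left.1 h hb ?_
  unfold TT
  exact mem_filter.2 ⟨hβ hb, hab⟩

theorem acyclic_empty (N : V → Finset V) : (HG N ∅).IsAcyclic := by
  have h : HG N ∅ = ⊥ := by
    ext u v
    unfold HG
    rw [SimpleGraph.fromRel_adj]
    simp
  rw [h]
  exact SimpleGraph.isAcyclic_bot

theorem phi_empty (N : V → Finset V) : phi μ U N ∅ = 1 := by
  unfold phi
  simp

/-- M9b, from the modules M1, M8 and the statements of M2, M3, M5 -/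
theorem marg_le_of {N : V → Finset V} {B : Finset V} {D : ℕ} (hN : Bip N B D) (hU : Ker μ U κ η)
    {σ : ℝ} (hn : Num D κ η σ) (hσ : 0 < σ) (hσD : σ * (10 ^ 8 * D ^ 10) ≤ 1)
    {g : Ω → ℝ} (hgm : BM g)
    (H2 : ∀ x y : ℝ, 0 ≤ x → 0 ≤ y → x * (1 + y) ^ (D ^ 2) ≤ y → ∀ T : Finset V,
      ∑ γ ∈ cnS (BG N) B (fun γ => ¬ Disjoint γ T), x ^ γ.card ≤ T.card * y)
    (H3 : ∀ x y : ℝ, 0 ≤ x → 0 ≤ y → x * (1 + y) ^ (D ^ 2) ≤ y → ∀ C : Finset V, C.Nonempty →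
      C ⊆ B → ∑ γ ∈ cnS (BG N) B (fun γ => C ⊆ γ ∧ C ≠ γ), x ^ (γ.card - C.card) ≤
        (1 + y) ^ (D ^ 2 * C.card) - 1)
    (H4 : ∀ γ ⊆ B, ¬ (HG N γ).IsAcyclic → ∃ (k : ℕ) (C : Finset V), C ⊆ γ ∧ CycP N C k ∧
      GC N γ k)
    (H5 : ∀ γ ⊆ B, ∀ k, CycP N γ k → Cn (BG N) γ)
    (H6 : ∀ a ∉ B, ∀ γ ⊆ B, ∀ k, 2 ≤ k → GC N γ k → |phig μ U N g a γ| ≤
      (2 * (D : ℝ) ^ 2) ^ ((k + 1) / 2) * σ ^ (γ.card - (k + 1) / 2) *
        Real.sqrt (ck μ U k) * Real.sqrt (∫ s, g s ^ 2 ∂μ))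
    (H7 : ∀ a ∉ B, ∀ γ ⊆ B, (HG N γ).IsAcyclic → phig μ U N g a γ = 0) :
    ∑ a ∈ univ \ B, D * (ZZg μ U N g a B / ZZ μ U N B) ^ 2 ≤
      1 / 4 * GG μ U N B (2 * σ * ((D:ℝ) ^ 2 + 1)) * ∫ s, g s ^ 2 ∂μ := by
  have hz := (ZZ_ratio μ hN hU hn (Finset.Subset.refl B)).1
  have hg2 : 0 ≤ ∫ s, g s ^ 2 ∂μ := integral_nonneg fun _ => sq_nonneg _
  have H1 : ∀ a ∉ B, |ZZg μ U N g a B| ≤ ZZ μ U N B *
      ∑ γ ∈ cnS (BG N) B (fun γ => ¬ Disjoint γ (TT N B a)),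
        Real.exp (2 * σ * ((D : ℝ) ^ 2 + 1) * γ.card) * |phig μ U N g a γ| := by
    intro a ha
    have h := gas_obs (BG N) (phi μ U N) (ZZ μ U N) (phig μ U N g a) B (TT N B a) σ (D ^ 2)
      (phi_empty μ N) (fun γ hγ β hβ hd hnb => phi_mul μ hN hU hγ hβ hd hnb)
      (fun Λ _ => ZZ_eq μ N hU Λ) (fun Λ hΛ => (ZZ_ratio μ hN hU hn hΛ).1)
      (fun Λ hΛ b hb hbΛ => (ZZ_ratio μ hN hU hn hΛ).2 b hb hbΛ) hn.σ0 hn.σ1 (BG_card hN)
      (clique_TT N B a)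
      (by
        intro β hβ hd
        have h1 := phig_mul μ hN hU (γ := ∅) (β := β) (Finset.empty_subset _) hβ
          (Finset.disjoint_empty_left _) hgm (a := a) (notMem_of_disjoint hβ hd)
          (by simp)
        rw [Finset.empty_union, H7 a ha ∅ (Finset.empty_subset _) (acyclic_empty N),
          zero_mul] at h1
        exact h1)
      (by
        intro γ hγ β hβ hd hβT hnb
        exact phig_mul μ hN hU hγ hβ hd hgm (notMem_of_disjoint hβ hβT) hnb)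
    rw [← ZZg_eq μ N hU hgm a B] at h
    push_cast at h
    exact h
  have h := core hN hn.hD hσ hσD (phig μ U N g) (fun a => ZZg μ U N g a B) (ZZ μ U N B) hz
    (fun k => ck μ U k) (fun k => ck_nonneg μ k) (Real.sqrt (∫ s, g s ^ 2 ∂μ))
    (Real.sqrt_nonneg _) H1 H2 H3 H4 H5 H6 H7
  rw [Real.sq_sqrt hg2] at h
  exact h

end Marg

end Vale.Agent.P050.Dense
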