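import Vale.Agent.P050.R2.H774.Marg

set_option linter.all false

/-!
Dense targets, phase 2: the core of the estimate of the marginals under the condition
`σ * D ^ 2 ≤ c`.
-/

open MeasureTheory Finset

namespace Vale.Agent.P050.Dense

open Vale.Agent.P050

namespace Marg

section core2

variable {V : Type*} [Fintype V] [DecidableEq V]

/-- the weight of the pair `C ⊆ γ` -/
noncomputable def w2 (D n k : ℕ) : ℝ := (1 / 200) ^ n * (1 / (D : ℝ) ^ 2) ^ (n - k) / (D : ℝ) ^ 2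

theorem w2_nonneg (D n k : ℕ) : 0 ≤ w2 D n k := by
  unfold w2
  positivity

/-- the numbers -/
theorem num2 {D : ℕ} (hD : 1 ≤ D) {σ A : ℝ} (hσ : 0 < σ) (hA : 1 ≤ A)
    (hσD : σ * (160000 * A ^ 2 * (D : ℝ) ^ 2) ≤ 1) :
    A ^ 2 * (σ * (D : ℝ) ^ 2) ≤ 1 / 160000 ∧ σ * (D : ℝ) ^ 2 ≤ 1 / 160000 ∧ σ ≤ 1 / 160000 ∧
      2 * σ * ((D : ℝ) ^ 2 + 1) ≤ 1 / 2 ∧ Real.exp (2 * σ * ((D : ℝ) ^ 2 + 1)) ≤ 2 := by
  have hD1 : (1 : ℝ) ≤ D := by exact_mod_cast hD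
  have h2 : (1 : ℝ) ≤ (D : ℝ) ^ 2 := one_le_pow₀ hD1
  have hA2 : (1 : ℝ) ≤ A ^ 2 := one_le_pow₀ hA
  have h0 : 0 ≤ σ * (D : ℝ) ^ 2 := by positivity
  have h1 : A ^ 2 * (σ * (D : ℝ) ^ 2) ≤ 1 / 160000 := by
    have : σ * (160000 * A ^ 2 * (D : ℝ) ^ 2) = 160000 * (A ^ 2 * (σ * (D : ℝ) ^ 2)) := by ring
    rw [this] at hσD
    linarith
  have h3 : σ * (D : ℝ) ^ 2 ≤ 1 / 160000 := by
    have := mul_le_mul_of_nonneg_right hA2 h0
    linarith
  have h4 : σ ≤ 1 / 160000 := by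
    have := mul_le_mul_of_nonneg_left h2 hσ.le
    linarith
  have h5 : 2 * σ * ((D : ℝ) ^ 2 + 1) ≤ 1 / 2 := by
    have : 2 * σ * ((D : ℝ) ^ 2 + 1) = 2 * (σ * (D : ℝ) ^ 2) + 2 * σ := by ring
    rw [this]
    linarith
  refine ⟨h1, h3, h4, h5, ?_⟩
  have h6 : Real.exp (1 / 2 : ℝ) ≤ 2 := by
    have h7 : Real.exp (1 / 2 : ℝ) ^ 2 ≤ 2 ^ 2 := by
      rw [← Real.exp_nat_mul]
      have := Real.exp_one_lt_d9
      norm_num
      linarith
    exact (pow_le_pow_iff_left₀ (Real.exp_pos _).le (by norm_num) (by norm_num)).1 h7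
  exact (Real.exp_le_exp.2 h5).trans h6

/-- the bound of one term -/
theorem term2_le {D : ℕ} (hD : 1 ≤ D) {σ A : ℝ} (hσ : 0 < σ) (hA : 1 ≤ A)
    (hσD : σ * (160000 * A ^ 2 * (D : ℝ) ^ 2) ≤ 1) {n k : ℕ} (hkn : k ≤ n) :
    (Real.exp (2 * σ * ((D : ℝ) ^ 2 + 1) * n) * (A ^ n * (σ ^ (n - k / 2) / D))) ^ 2 ≤
      (1 / (200 * (D : ℝ) ^ 2)) ^ n * w2 D n k := by
  obtain ⟨h1, h3, h4, -, h6⟩ := num2 hD hσ hA hσD
  have hD1 : (1 : ℝ) ≤ D := by exact_mod_cast hD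
  have hD0 : (0 : ℝ) < D := by linarith
  have hA0 : 0 < A := by linarith
  set E := Real.exp (2 * σ * ((D : ℝ) ^ 2 + 1)) with hE
  have hE0 : 0 < E := Real.exp_pos _
  set s : ℝ := σ * (D : ℝ) ^ 2 with hs
  have hs0 : 0 < s := by positivity
  have hs1 : s ≤ 1 := by linarith
  have hσ1 : σ ≤ 1 := by linarith
  have e0 : Real.exp (2 * σ * ((D : ℝ) ^ 2 + 1) * n) = E ^ n := by
    rw [hE, ← Real.exp_nat_mul]
    congr 1
    ring
  have e1 : (σ ^ (n - k / 2)) ^ 2 ≤ σ ^ (2 * n - k) := by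
    rw [← pow_mul]
    exact pow_le_pow_of_le_one hσ.le hσ1 (by omega)
  have e2 : σ ^ (2 * n - k) = s ^ (2 * n - k) / ((D : ℝ) ^ 2) ^ (2 * n - k) := by
    rw [hs, ← div_pow]
    congr 1
    field_simp
  have e3 : ((D : ℝ) ^ 2) ^ (2 * n - k) = ((D : ℝ) ^ 2) ^ n * ((D : ℝ) ^ 2) ^ (n - k) := by
    rw [← pow_add]
    congr 1
    omega
  have e4 : s ^ (2 * n - k) ≤ s ^ n := pow_le_pow_of_le_one hs0.le hs1 (by omega)
  have e5 : σ ^ (2 * n - k) ≤ s ^ n / (((D : ℝ) ^ 2) ^ n * ((D : ℝ) ^ 2) ^ (n - k)) := by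
    rw [e2, e3]
    exact div_le_div_of_nonneg_right e4 (by positivity)
  have e6 : (E ^ 2 * A ^ 2 * s) ^ n ≤ (1 / 40000) ^ n := by
    refine pow_le_pow_left₀ (by positivity) ?_ n
    have h7 : E ^ 2 ≤ 2 ^ 2 := pow_le_pow_left₀ hE0.le h6 2
    calc E ^ 2 * A ^ 2 * s = E ^ 2 * (A ^ 2 * s) := by ring
      _ ≤ 2 ^ 2 * (1 / 160000) := mul_le_mul h7 h1 (by positivity) (by norm_num)
      _ = 1 / 40000 := by norm_num
  rw [e0]
  calc (E ^ n * (A ^ n * (σ ^ (n - k / 2) / D))) ^ 2 =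
        (E ^ n) ^ 2 * (A ^ n) ^ 2 * (σ ^ (n - k / 2)) ^ 2 / (D : ℝ) ^ 2 := by
        rw [mul_pow, mul_pow, div_pow]
        ring
    _ ≤ (E ^ n) ^ 2 * (A ^ n) ^ 2 * (s ^ n / (((D : ℝ) ^ 2) ^ n * ((D : ℝ) ^ 2) ^ (n - k))) /
          (D : ℝ) ^ 2 := by
        refine div_le_div_of_nonneg_right ?_ (by positivity)
        exact mul_le_mul_of_nonneg_left (e1.trans e5) (by positivity)
    _ = (E ^ 2 * A ^ 2 * s) ^ n / (((D : ℝ) ^ 2) ^ n * ((D : ℝ) ^ 2) ^ (n - k)) /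
          (D : ℝ) ^ 2 := by
        rw [mul_pow, mul_pow, ← pow_mul, ← pow_mul, ← pow_mul, ← pow_mul, mul_comm n 2]
        ring
    _ ≤ (1 / 40000) ^ n / (((D : ℝ) ^ 2) ^ n * ((D : ℝ) ^ 2) ^ (n - k)) / (D : ℝ) ^ 2 := by
        refine div_le_div_of_nonneg_right ?_ (by positivity)
        exact div_le_div_of_nonneg_right e6 (by positivity)
    _ = (1 / (200 * (D : ℝ) ^ 2)) ^ n * w2 D n k := by
        unfold w2
        have e7 : (1 / 40000 : ℝ) ^ n = (1 / 200) ^ n * (1 / 200) ^ n := by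
          rw [← mul_pow]
          norm_num
        have e8 : (1 / (200 * (D : ℝ) ^ 2)) ^ n = (1 / 200) ^ n * (1 / (D : ℝ) ^ 2) ^ n := by
          rw [← mul_pow]
          congr 1
          field_simp
        rw [e7, e8, one_div_pow ((D : ℝ) ^ 2) n, one_div_pow ((D : ℝ) ^ 2) (n - k)]
        field_simp

/-- the sum over the connected sets which contain a given cycle polymer -/
theorem sum_super2 {N : V → Finset V} {B : Finset V} {D : ℕ} (hD : 1 ≤ D)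
    (H3 : ∀ x y : ℝ, 0 ≤ x → 0 ≤ y → x * (1 + y) ^ (D ^ 2) ≤ y → ∀ C : Finset V, C.Nonempty →
      C ⊆ B → ∑ γ ∈ cnS (BG N) B (fun γ => C ⊆ γ ∧ C ≠ γ), x ^ (γ.card - C.card) ≤
        (1 + y) ^ (D ^ 2 * C.card) - 1)
    {C : Finset V} (hC : C.Nonempty) (hCB : C ⊆ B) :
    ∑ γ ∈ cnS (BG N) B (fun γ => C ⊆ γ), (D : ℝ) * γ.card * w2 D γ.card C.card ≤
      (1 / 50) ^ C.card := by
  have hD1 : (1 : ℝ) ≤ D := by exact_mod_cast hD
  have hD0 : (0 : ℝ) < D := by linarith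
  set x : ℝ := 1 / (100 * (D : ℝ) ^ 2) with hx
  have hx0 : 0 < x := by positivity
  have hxD : x * (D : ℝ) ^ 2 = 1 / 100 := by
    rw [hx]
    field_simp
  have hle : ∀ γ ∈ cnS (BG N) B (fun γ => C ⊆ γ), (D : ℝ) * γ.card * w2 D γ.card C.card ≤
      (1 / 100) ^ C.card * x ^ (γ.card - C.card) := by
    intro γ hγ
    have hCγ : C ⊆ γ := (mem_cnS.1 hγ).2.2
    obtain ⟨j, hj⟩ := Nat.exists_eq_add_of_le (card_le_card hCγ)
    unfold w2
    rw [hj, Nat.add_sub_cancel_left]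
    have h1 : ((C.card + j : ℕ) : ℝ) ≤ 2 ^ (C.card + j) := by
      exact_mod_cast (Nat.lt_two_pow_self (n := C.card + j)).le
    have h2 : (D : ℝ) / (D : ℝ) ^ 2 ≤ 1 := by
      rw [div_le_one (by positivity)]
      nlinarith
    calc (D : ℝ) * ((C.card + j : ℕ) : ℝ) *
          ((1 / 200) ^ (C.card + j) * (1 / (D : ℝ) ^ 2) ^ j / (D : ℝ) ^ 2) =
          ((D : ℝ) / (D : ℝ) ^ 2) * (((C.card + j : ℕ) : ℝ) *
            ((1 / 200) ^ (C.card + j) * (1 / (D : ℝ) ^ 2) ^ j)) := by ring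
      _ ≤ 1 * (2 ^ (C.card + j) * ((1 / 200) ^ (C.card + j) * (1 / (D : ℝ) ^ 2) ^ j)) := by
          refine mul_le_mul h2 (mul_le_mul_of_nonneg_right h1 (by positivity)) (by positivity)
            (by norm_num)
      _ = (1 / 100) ^ (C.card + j) * (1 / (D : ℝ) ^ 2) ^ j := by
          rw [one_mul, ← mul_assoc, ← mul_pow]
          norm_num
      _ = (1 / 100) ^ C.card * x ^ j := by
          rw [pow_add, mul_assoc, ← mul_pow]
          congr 2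
          rw [hx]
          field_simp
  have hsplit : ∑ γ ∈ cnS (BG N) B (fun γ => C ⊆ γ), x ^ (γ.card - C.card) ≤
      1 + ∑ γ ∈ cnS (BG N) B (fun γ => C ⊆ γ ∧ C ≠ γ), x ^ (γ.card - C.card) := by
    have hsub : cnS (BG N) B (fun γ => C ⊆ γ) ⊆
        insert C (cnS (BG N) B (fun γ => C ⊆ γ ∧ C ≠ γ)) := by
      intro γ hγ
      rw [mem_insert]
      by_cases h : C = γ
      · exact Or.inl h.symm
      · right
        rw [mem_cnS] at hγ ⊢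
        exact ⟨hγ.1, hγ.2.1, hγ.2.2, h⟩
    have hnot : C ∉ cnS (BG N) B (fun γ => C ⊆ γ ∧ C ≠ γ) := fun h =>
      (mem_cnS.1 h).2.2.2 rfl
    calc _ ≤ ∑ γ ∈ insert C (cnS (BG N) B (fun γ => C ⊆ γ ∧ C ≠ γ)),
          x ^ (γ.card - C.card) :=
          sum_le_sum_of_subset_of_nonneg hsub fun _ _ _ => by positivity
      _ = _ := by
          rw [sum_insert hnot]
          simp
  have hy1 : (1 + 2 * x) ^ (D ^ 2) ≤ 2 := by
    refine num_pow hD (by positivity) ?_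
    have : 2 * x * (D : ℝ) ^ 2 = 2 * (x * (D : ℝ) ^ 2) := by ring
    rw [this, hxD]
    norm_num
  have hy2 : x * (1 + 2 * x) ^ (D ^ 2) ≤ 2 * x := by
    have := mul_le_mul_of_nonneg_left hy1 hx0.le
    linarith
  have h3 := H3 x (2 * x) hx0.le (by positivity) hy2 C hC hCB
  have hpow : (1 + 2 * x) ^ (D ^ 2 * C.card) ≤ 2 ^ C.card := by
    rw [pow_mul]
    exact pow_le_pow_left₀ (by positivity) hy1 _
  calc ∑ γ ∈ cnS (BG N) B (fun γ => C ⊆ γ), (D : ℝ) * γ.card * w2 D γ.card C.card ≤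
        ∑ γ ∈ cnS (BG N) B (fun γ => C ⊆ γ), (1 / 100) ^ C.card * x ^ (γ.card - C.card) :=
        sum_le_sum hle
    _ = (1 / 100) ^ C.card * ∑ γ ∈ cnS (BG N) B (fun γ => C ⊆ γ), x ^ (γ.card - C.card) := by
        rw [mul_sum]
    _ ≤ (1 / 100) ^ C.card * 2 ^ C.card := by
        refine mul_le_mul_of_nonneg_left ?_ (by positivity)
        linarith
    _ = (1 / 50) ^ C.card := by
        rw [← mul_pow]
        norm_num

open scoped Classical in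
/-- the core of the estimate of the marginals -/
theorem core2 {N : V → Finset V} {B : Finset V} {D : ℕ} (hN : Bip N B D) (hD : 1 ≤ D)
    {σ A : ℝ} (hσ : 0 < σ) (hA : 1 ≤ A) (hσD : σ * (160000 * A ^ 2 * (D : ℝ) ^ 2) ≤ 1)
    (φg : V → Finset V → ℝ) (zg : V → ℝ) (z : ℝ) (hz : 0 < z) (f : Finset V → ℝ)
    (hf : ∀ C ⊆ B, CycP N C C.card → 0 ≤ f C) (Γ : ℝ) (hΓ : 0 ≤ Γ)
    (H1 : ∀ a ∉ B, |zg a| ≤ z * ∑ γ ∈ cnS (BG N) B (fun γ => ¬ Disjoint γ (TT N B a)),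
      Real.exp (2 * σ * ((D : ℝ) ^ 2 + 1) * γ.card) * |φg a γ|)
    (H2 : ∀ x y : ℝ, 0 ≤ x → 0 ≤ y → x * (1 + y) ^ (D ^ 2) ≤ y → ∀ T : Finset V,
      ∑ γ ∈ cnS (BG N) B (fun γ => ¬ Disjoint γ T), x ^ γ.card ≤ T.card * y)
    (H3 : ∀ x y : ℝ, 0 ≤ x → 0 ≤ y → x * (1 + y) ^ (D ^ 2) ≤ y → ∀ C : Finset V, C.Nonempty →
      C ⊆ B → ∑ γ ∈ cnS (BG N) B (fun γ => C ⊆ γ ∧ C ≠ γ), x ^ (γ.card - C.card) ≤
        (1 + y) ^ (D ^ 2 * C.card) - 1)
    (H5 : ∀ γ ⊆ B, ∀ k, CycP N γ k → Cn (BG N) γ)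
    (H6 : ∀ a ∉ B, ∀ γ ⊆ B, Cn (BG N) γ → ¬ Disjoint γ (TT N B a) → ¬ (HG N γ).IsAcyclic →
      ∃ C ⊆ γ, CycP N C C.card ∧
        |φg a γ| ≤ A ^ γ.card * (σ ^ (γ.card - C.card / 2) / D) * Real.sqrt (f C) * Γ)
    (H7 : ∀ a ∉ B, ∀ γ ⊆ B, (HG N γ).IsAcyclic → φg a γ = 0) :
    ∑ a ∈ univ \ B, (D : ℝ) * (zg a / z) ^ 2 ≤
      1 / 4 * (∑ γ ∈ cnS (BG N) B (fun γ => CycP N γ γ.card),
        Real.exp (-(2 * σ * ((D : ℝ) ^ 2 + 1) * γ.card)) * f γ) * Γ ^ 2 := by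
  obtain ⟨-, -, -, hnum5, -⟩ := num2 hD hσ hA hσD
  have hD1 : (1 : ℝ) ≤ D := by exact_mod_cast hD
  have hD0 : (0 : ℝ) < D := by linarith
  set x : ℝ := 1 / (200 * (D : ℝ) ^ 2) with hx
  have hx0 : 0 < x := by positivity
  have hxD : x * (D : ℝ) ^ 2 = 1 / 200 := by
    rw [hx]
    field_simp
  set CY := cnS (BG N) B (fun γ => CycP N γ γ.card) with hCY
  have hfCY : ∀ C ∈ CY, 0 ≤ f C := by
    intro C hC
    obtain ⟨h1, -, h3⟩ := mem_cnS.1 hC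
    exact hf C h1 h3
  set cc : Finset V → ℝ := fun γ => ∑ C ∈ CY.filter (fun C => C ⊆ γ), w2 D γ.card C.card * f C
    with hcc
  have hcc0 : ∀ γ, 0 ≤ cc γ := fun γ => sum_nonneg fun C hC =>
    mul_nonneg (w2_nonneg _ _ _) (hfCY C (mem_filter.1 hC).1)
  -- one term
  have hterm : ∀ a ∉ B, ∀ γ ∈ cnS (BG N) B (fun γ => ¬ Disjoint γ (TT N B a)),
      Real.exp (2 * σ * ((D : ℝ) ^ 2 + 1) * γ.card) * |φg a γ| ≤
        Real.sqrt (x ^ γ.card) * Real.sqrt (cc γ) * Γ := by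
    intro a ha γ hγ
    obtain ⟨hγB, hγc, hγT⟩ := mem_cnS.1 hγ
    by_cases hac : (HG N γ).IsAcyclic
    · rw [H7 a ha γ hγB hac, abs_zero, mul_zero]
      positivity
    · obtain ⟨C, hCγ, hCk, h6⟩ := H6 a ha γ hγB hγc hγT hac
      have hkn : C.card ≤ γ.card := card_le_card hCγ
      have hmem : C ∈ CY.filter (fun C => C ⊆ γ) := by
        rw [mem_filter]
        refine ⟨?_, hCγ⟩
        rw [hCY, mem_cnS]
        exact ⟨hCγ.trans hγB, H5 C (hCγ.trans hγB) _ hCk, hCk⟩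
      have hfC : 0 ≤ f C := hf C (hCγ.trans hγB) hCk
      have hck : w2 D γ.card C.card * f C ≤ cc γ :=
        single_le_sum (f := fun C : Finset V => w2 D γ.card C.card * f C)
          (fun C hC => mul_nonneg (w2_nonneg _ _ _) (hfCY C (mem_filter.1 hC).1)) hmem
      have ht := term2_le hD hσ hA hσD hkn
      rw [← hx] at ht
      set t : ℝ := Real.exp (2 * σ * ((D : ℝ) ^ 2 + 1) * γ.card) *
        (A ^ γ.card * (σ ^ (γ.card - C.card / 2) / D)) with htd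
      have ht0 : 0 ≤ t := by
        have : 0 < A := by linarith
        positivity
      have h7 : t * Real.sqrt (f C) ≤ Real.sqrt (x ^ γ.card) * Real.sqrt (cc γ) := by
        rw [← Real.sqrt_mul (by positivity)]
        refine Real.le_sqrt_of_sq_le ?_
        rw [mul_pow, Real.sq_sqrt hfC]
        calc t ^ 2 * f C ≤ (x ^ γ.card * w2 D γ.card C.card) * f C :=
              mul_le_mul_of_nonneg_right ht hfC
          _ = x ^ γ.card * (w2 D γ.card C.card * f C) := by ring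
          _ ≤ _ := mul_le_mul_of_nonneg_left hck (by positivity)
      calc Real.exp (2 * σ * ((D : ℝ) ^ 2 + 1) * γ.card) * |φg a γ| ≤
            Real.exp (2 * σ * ((D : ℝ) ^ 2 + 1) * γ.card) *
            (A ^ γ.card * (σ ^ (γ.card - C.card / 2) / D) * Real.sqrt (f C) * Γ) :=
            mul_le_mul_of_nonneg_left h6 (Real.exp_pos _).le
        _ = t * Real.sqrt (f C) * Γ := by
            rw [htd]
            ring
        _ ≤ _ := mul_le_mul_of_nonneg_right h7 hΓ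
  -- the numbers of `count_meet`
  have hy1 : (1 + 2 * x) ^ (D ^ 2) ≤ 2 := by
    refine num_pow hD (by positivity) ?_
    have : 2 * x * (D : ℝ) ^ 2 = 2 * (x * (D : ℝ) ^ 2) := by ring
    rw [this, hxD]
    norm_num
  have hy2 : x * (1 + 2 * x) ^ (D ^ 2) ≤ 2 * x := by
    have := mul_le_mul_of_nonneg_left hy1 hx0.le
    linarith
  -- the square, for one `a`
  have hone : ∀ a ∉ B, (D : ℝ) * (zg a / z) ^ 2 ≤ (1 / 100) * Γ ^ 2 *
      ∑ γ ∈ cnS (BG N) B (fun γ => ¬ Disjoint γ (TT N B a)), cc γ := by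
    intro a ha
    set S := cnS (BG N) B (fun γ => ¬ Disjoint γ (TT N B a)) with hS
    have h1 : |zg a / z| ≤ Γ * ∑ γ ∈ S, Real.sqrt (x ^ γ.card) * Real.sqrt (cc γ) := by
      rw [abs_div, abs_of_pos hz, div_le_iff₀ hz]
      refine (H1 a ha).trans ?_
      rw [← hS, mul_comm z]
      refine mul_le_mul_of_nonneg_right ?_ hz.le
      rw [mul_sum]
      refine sum_le_sum fun γ hγ => ?_
      refine (hterm a ha γ hγ).trans (le_of_eq ?_)
      ring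
    have h2 : (∑ γ ∈ S, Real.sqrt (x ^ γ.card) * Real.sqrt (cc γ)) ^ 2 ≤
        (∑ γ ∈ S, x ^ γ.card) * ∑ γ ∈ S, cc γ := by
      have h := sum_mul_sq_le_sq_mul_sq S (fun γ => Real.sqrt (x ^ γ.card))
        (fun γ => Real.sqrt (cc γ))
      have e2 : ∀ γ ∈ S, Real.sqrt (x ^ γ.card) ^ 2 = x ^ γ.card := by
        intro γ _
        rw [Real.sq_sqrt (by positivity)]
      have e3 : ∀ γ ∈ S, Real.sqrt (cc γ) ^ 2 = cc γ := by
        intro γ _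
        rw [Real.sq_sqrt (hcc0 γ)]
      rw [sum_congr rfl e2, sum_congr rfl e3] at h
      exact h
    have h3 : ∑ γ ∈ S, x ^ γ.card ≤ D * (2 * x) := by
      refine (H2 x (2 * x) hx0.le (by positivity) hy2 (TT N B a)).trans ?_
      refine mul_le_mul_of_nonneg_right ?_ (by positivity)
      exact_mod_cast hN.dA a
    have h4 : 0 ≤ ∑ γ ∈ S, cc γ := sum_nonneg fun γ _ => hcc0 γ
    have h5 : (zg a / z) ^ 2 ≤ Γ ^ 2 * ((D * (2 * x)) * ∑ γ ∈ S, cc γ) := by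
      rw [← sq_abs]
      calc |zg a / z| ^ 2 ≤ (Γ * ∑ γ ∈ S, Real.sqrt (x ^ γ.card) * Real.sqrt (cc γ)) ^ 2 :=
            pow_le_pow_left₀ (abs_nonneg _) h1 2
        _ = Γ ^ 2 * (∑ γ ∈ S, Real.sqrt (x ^ γ.card) * Real.sqrt (cc γ)) ^ 2 := by ring
        _ ≤ Γ ^ 2 * ((∑ γ ∈ S, x ^ γ.card) * ∑ γ ∈ S, cc γ) :=
            mul_le_mul_of_nonneg_left h2 (sq_nonneg _)
        _ ≤ _ := mul_le_mul_of_nonneg_left (mul_le_mul_of_nonneg_right h3 h4) (sq_nonneg _)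
    calc (D : ℝ) * (zg a / z) ^ 2 ≤
          D * (Γ ^ 2 * ((D * (2 * x)) * ∑ γ ∈ S, cc γ)) :=
          mul_le_mul_of_nonneg_left h5 hD0.le
      _ = 2 * (x * (D : ℝ) ^ 2) * Γ ^ 2 * ∑ γ ∈ S, cc γ := by ring
      _ = _ := by rw [hxD]; norm_num
  -- the sum over `a`
  have hall : ∑ a ∈ univ \ B, ∑ γ ∈ cnS (BG N) B (fun γ => ¬ Disjoint γ (TT N B a)),
      cc γ ≤ ∑ γ ∈ cnS (BG N) B (fun _ => True), (D * γ.card : ℝ) * cc γ := by
    have e1 : ∀ a ∈ univ \ B, ∑ γ ∈ cnS (BG N) B (fun γ => ¬ Disjoint γ (TT N B a)),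
        cc γ = ∑ γ ∈ cnS (BG N) B (fun _ => True),
          if ¬ Disjoint γ (TT N B a) then cc γ else 0 := by
      intro a _
      rw [← sum_filter]
      refine sum_congr ?_ fun _ _ => rfl
      ext γ
      simp only [mem_cnS, mem_filter, and_true]
      tauto
    rw [sum_congr rfl e1, sum_comm]
    refine sum_le_sum fun γ hγ => ?_
    rw [← sum_filter, sum_const, nsmul_eq_mul]
    refine mul_le_mul_of_nonneg_right ?_ (hcc0 γ)
    have := card_a hN (mem_cnS.1 hγ).1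
    exact_mod_cast this
  -- exchange the sums over `γ` and `C`
  have hex : ∑ γ ∈ cnS (BG N) B (fun _ => True), (D * γ.card : ℝ) * cc γ =
      ∑ C ∈ CY, f C * ∑ γ ∈ cnS (BG N) B (fun γ => C ⊆ γ),
        (D : ℝ) * γ.card * w2 D γ.card C.card := by
    have e1 : ∀ γ ∈ cnS (BG N) B (fun _ => True), (D * γ.card : ℝ) * cc γ =
        ∑ C ∈ CY, if C ⊆ γ then f C * ((D : ℝ) * γ.card * w2 D γ.card C.card) else 0 := by
      intro γ _
      rw [← sum_filter, hcc, mul_sum]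
      refine sum_congr rfl fun C _ => ?_
      ring
    rw [sum_congr rfl e1, sum_comm]
    refine sum_congr rfl fun C _ => ?_
    rw [← sum_filter, mul_sum]
    refine sum_congr ?_ fun _ _ => rfl
    ext γ
    simp only [mem_cnS, mem_filter, and_true]
    tauto
  have hfin : ∀ C ∈ CY, f C * ∑ γ ∈ cnS (BG N) B (fun γ => C ⊆ γ),
      (D : ℝ) * γ.card * w2 D γ.card C.card ≤
      Real.exp (-(2 * σ * ((D : ℝ) ^ 2 + 1) * C.card)) * f C := by
    intro C hC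
    obtain ⟨hCB, -, hCk⟩ := mem_cnS.1 hC
    have hk : 2 ≤ C.card := hCk.1
    have hne : C.Nonempty := card_pos.1 (by omega)
    have h1 := sum_super2 hD H3 hne hCB
    rw [mul_comm]
    refine mul_le_mul_of_nonneg_right (h1.trans ?_) (hfCY C hC)
    have h4 : Real.exp (-(2 * σ * ((D : ℝ) ^ 2 + 1) * C.card)) =
        Real.exp (-(2 * σ * ((D : ℝ) ^ 2 + 1))) ^ C.card := by
      rw [← Real.exp_nat_mul]
      congr 1
      ring
    rw [h4]
    refine pow_le_pow_left₀ (by norm_num) ?_ _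
    have h6 := Real.add_one_le_exp (-(2 * σ * ((D : ℝ) ^ 2 + 1)))
    linarith
  have hGG : 0 ≤ ∑ γ ∈ CY, Real.exp (-(2 * σ * ((D : ℝ) ^ 2 + 1) * γ.card)) * f γ :=
    sum_nonneg fun γ hγ => mul_nonneg (Real.exp_pos _).le (hfCY γ hγ)
  calc ∑ a ∈ univ \ B, (D : ℝ) * (zg a / z) ^ 2 ≤
        ∑ a ∈ univ \ B, (1 / 100) * Γ ^ 2 *
          ∑ γ ∈ cnS (BG N) B (fun γ => ¬ Disjoint γ (TT N B a)), cc γ :=
        sum_le_sum fun a ha => hone a (mem_sdiff.1 ha).2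
    _ = (1 / 100) * Γ ^ 2 * ∑ a ∈ univ \ B,
          ∑ γ ∈ cnS (BG N) B (fun γ => ¬ Disjoint γ (TT N B a)), cc γ := by
        rw [mul_sum]
    _ ≤ (1 / 100) * Γ ^ 2 * ∑ C ∈ CY,
          Real.exp (-(2 * σ * ((D : ℝ) ^ 2 + 1) * C.card)) * f C := by
        refine mul_le_mul_of_nonneg_left ?_ (by positivity)
        refine hall.trans ?_
        rw [hex]
        exact sum_le_sum hfin
    _ ≤ _ := by
        have := mul_nonneg hGG (sq_nonneg Γ)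
        nlinarith

end core2

end Marg

end Vale.Agent.P050.Dense
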