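import Vale.Agent.P050.R2.H774.Marg4
import Vale.Agent.P050.R2.H774.Marg3
import Vale.Agent.P050.R2.H146.Cyc
import Vale.Agent.P050.R2.H234.GG2

set_option linter.all false

/-!
Dense targets, phase 2: the estimate of the marginals under the condition `σ * D ^ 2 ≤ c`.
-/

open MeasureTheory Finset

namespace Vale.Agent.P050.Dense

open Vale.Agent.P050

variable {V : Type*} [Fintype V] [DecidableEq V] {Ω : Type*} [MeasurableSpace Ω]
variable (μ : Measure Ω) [IsProbabilityMeasure μ] {U : Sym2 Ω → ℝ} {κ η : ℝ}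

/-- the combined bound of the activities with a marked vertex -/
def PolyBdg (μ : Measure Ω) (U : Sym2 Ω → ℝ) (N : V → Finset V) (B : Finset V) (D : ℕ) (σ : ℝ)
    (g : Ω → ℝ) : Prop :=
  ∀ a ∉ B, ∀ γ ⊆ B, Cn (BG N) γ → ¬ Disjoint γ (TT N B a) → ¬ (HG N γ).IsAcyclic →
    ∃ C ⊆ γ, CycP N C C.card ∧
      |phig μ U N g a γ| ≤ 8 * (γ.card : ℝ) ^ 5 * 2 ^ C.card *
        (σ ^ (γ.card - C.card / 2) / D) * Real.sqrt (phi μ U N C) *
          Real.sqrt (∫ s, g s ^ 2 ∂μ)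

/-- the activity of a cycle polymer is nonnegative -/
theorem phi_cyc_nonneg {N : V → Finset V} {B C : Finset V} {D : ℕ} (hN : Bip N B D)
    (hU : Ker μ U κ η) (hC : C ⊆ B) (h : CycP N C C.card) : 0 ≤ phi μ U N C :=
  (ck_nonneg μ _).trans (ck_le_phi μ hN hU hC h)

/-- the estimate of the marginals, from the bound of the activities -/
theorem marg_le2_of {N : V → Finset V} {B : Finset V} {D : ℕ} (hN : Bip N B D) (hU : Ker μ U κ η)
    {σ : ℝ} (hn : Num D κ η σ) (hσ : 0 < σ) (hσD : σ * (10 ^ 11 * (D : ℝ) ^ 2) ≤ 1)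
    {g : Ω → ℝ} (hgm : BM g) (hg0 : ∫ s, g s ∂μ = 0) (hP : PolyBdg μ U N B D σ g) :
    ∑ a ∈ univ \ B, D * (ZZg μ U N g a B / ZZ μ U N B) ^ 2 ≤
      1 / 4 * GG2 μ U N B (2 * σ * ((D:ℝ) ^ 2 + 1)) * ∫ s, g s ^ 2 ∂μ := by
  have hz := (ZZ_ratio μ hN hU hn (Finset.Subset.refl B)).1
  have hg2 : 0 ≤ ∫ s, g s ^ 2 ∂μ := integral_nonneg fun _ => sq_nonneg _
  have H7 : ∀ a ∉ B, ∀ γ ⊆ B, (HG N γ).IsAcyclic → phig μ U N g a γ = 0 :=
    fun a ha γ hγ hac => phig_eq_zero μ hN hU hγ hac hgm hg0 ha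
  have H1 : ∀ a ∉ B, |ZZg μ U N g a B| ≤ ZZ μ U N B *
      ∑ γ ∈ cnS (BG N) B (fun γ => ¬ Disjoint γ (TT N B a)),
        Real.exp (2 * σ * ((D : ℝ) ^ 2 + 1) * γ.card) * |phig μ U N g a γ| := by
    intro a ha
    have h := gas_obs (BG N) (phi μ U N) (ZZ μ U N) (phig μ U N g a) B (TT N B a) σ (D ^ 2)
      (Marg.phi_empty μ N) (fun γ hγ β hβ hd hnb => phi_mul μ hN hU hγ hβ hd hnb)
      (fun Λ _ => ZZ_eq μ N hU Λ) (fun Λ hΛ => (ZZ_ratio μ hN hU hn hΛ).1)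
      (fun Λ hΛ b hb hbΛ => (ZZ_ratio μ hN hU hn hΛ).2 b hb hbΛ) hn.σ0 hn.σ1 (BG_card hN)
      (Marg.clique_TT N B a)
      (by
        intro β hβ hd
        have h1 := phig_mul μ hN hU (γ := ∅) (β := β) (Finset.empty_subset _) hβ
          (Finset.disjoint_empty_left _) hgm (a := a) (Marg.notMem_of_disjoint hβ hd)
          (by simp)
        rw [Finset.empty_union, H7 a ha ∅ (Finset.empty_subset _) (Marg.acyclic_empty N),
          zero_mul] at h1
        exact h1)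
      (by
        intro γ hγ β hβ hd hβT hnb
        exact phig_mul μ hN hU hγ hβ hd hgm (Marg.notMem_of_disjoint hβ hβT) hnb)
    rw [← ZZg_eq μ N hU hgm a B] at h
    push_cast at h
    exact h
  have hA : σ * (160000 * (512 : ℝ) ^ 2 * (D : ℝ) ^ 2) ≤ 1 := by
    refine le_trans ?_ hσD
    refine mul_le_mul_of_nonneg_left ?_ hσ.le
    refine mul_le_mul_of_nonneg_right ?_ (by positivity)
    norm_num
  have h := Marg.core2 hN hn.hD hσ (by norm_num : (1:ℝ) ≤ 512) hA (phig μ U N g)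
    (fun a => ZZg μ U N g a B) (ZZ μ U N B) hz (fun C => phi μ U N C)
    (fun C hC hk => phi_cyc_nonneg μ hN hU hC hk) (Real.sqrt (∫ s, g s ^ 2 ∂μ))
    (Real.sqrt_nonneg _) H1
    (fun x y hx hy hxy T => count_meet (BG N) B (D ^ 2) (BG_card hN) x y hx hy hxy T)
    (fun x y hx hy hxy C hC hCB => count_super (BG N) B (D ^ 2) (BG_card hN) x y hx hy hxy C hC
      hCB)
    (fun γ hγ k h => CycP.cn hN hγ h)
    (by
      intro a ha γ hγ hγc hγT hac
      obtain ⟨C, hCγ, hCk, h6⟩ := hP a ha γ hγ hγc hγT hac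
      refine ⟨C, hCγ, hCk, h6.trans ?_⟩
      have hn1 : 1 ≤ γ.card := card_pos.2 hγc.1
      have hkn : C.card ≤ γ.card := card_le_card hCγ
      have e1 : ((γ.card : ℕ) : ℝ) ≤ 2 ^ γ.card := by
        exact_mod_cast (Nat.lt_two_pow_self (n := γ.card)).le
      have e2 : ((γ.card : ℕ) : ℝ) ^ 5 ≤ 32 ^ γ.card := by
        calc ((γ.card : ℕ) : ℝ) ^ 5 ≤ (2 ^ γ.card) ^ 5 :=
              pow_le_pow_left₀ (Nat.cast_nonneg _) e1 5
          _ = 32 ^ γ.card := by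
              rw [← pow_mul, mul_comm, pow_mul]
              norm_num
      have e3 : (2 : ℝ) ^ C.card ≤ 2 ^ γ.card := pow_le_pow_right₀ (by norm_num) hkn
      have e4 : (8 : ℝ) ≤ 8 ^ γ.card := by
        calc (8 : ℝ) = 8 ^ 1 := (pow_one _).symm
          _ ≤ _ := pow_le_pow_right₀ (by norm_num) hn1
      have e5 : 8 * (γ.card : ℝ) ^ 5 * 2 ^ C.card ≤ 512 ^ γ.card := by
        calc 8 * (γ.card : ℝ) ^ 5 * 2 ^ C.card ≤ 8 ^ γ.card * 32 ^ γ.card * 2 ^ γ.card := by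
              gcongr
          _ = 512 ^ γ.card := by
              rw [← mul_pow, ← mul_pow]
              norm_num
      have e6 : 0 ≤ σ ^ (γ.card - C.card / 2) / (D : ℝ) := by positivity
      gcongr)
    H7
  rw [Real.sq_sqrt hg2] at h
  exact h

end Vale.Agent.P050.Dense
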