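import Vale.Agent.P050.R2.H774.Marg5
import Vale.Agent.P050.R2.H625.Cnt5
import Vale.Agent.P050.R2.H322.TwoD

set_option linter.all false

/-!
Dense targets, phase 2: the estimate of the marginals (final form).
-/

open MeasureTheory Finset

namespace Vale.Agent.P050.Dense

open Vale.Agent.P050

variable {V : Type*} [Fintype V] [DecidableEq V] {Ω : Type*} [MeasurableSpace Ω]
variable (μ : Measure Ω) [IsProbabilityMeasure μ] {U : Sym2 Ω → ℝ} {κ η : ℝ}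

/-- the combined bound of the activities with a marked vertex -/
theorem polyBdg {N : V → Finset V} {B : Finset V} {D : ℕ} (hN : Bip N B D) (hU : Ker μ U κ η)
    {σ : ℝ} (hn : Num D κ η σ) (hσ : 0 < σ) {g : Ω → ℝ} (hgm : BM g) (hg0 : ∫ s, g s ∂μ = 0) :
    PolyBdg μ U N B D σ g := by
  intro a ha γ hγ hγc hγT hac
  have hD1 : (1 : ℝ) ≤ D := by exact_mod_cast hn.hD
  have hD0 : (0 : ℝ) < D := by linarith
  obtain ⟨k, C, hCγ, hCk, hg⟩ := exists_cycP hN hγ hac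
  have hk : 2 ≤ k := hCk.1
  have hCcard : C.card = k := hCk.2.1
  have hkn : k ≤ γ.card := hCcard ▸ card_le_card hCγ
  have hn1 : (1 : ℝ) ≤ γ.card := by
    have : 1 ≤ γ.card := by omega
    exact_mod_cast this
  rcases Nat.lt_or_ge 2 k with h3 | h2
  · -- `k ≥ 3`
    refine ⟨C, hCγ, hCcard ▸ hCk, ?_⟩
    rw [hCcard]
    have h4 := phig_bound3' μ hN hU hn hσ hγ h3 hg hkn hgm hg0 ha
    have h5 : ck μ U k ≤ phi μ U N C := ck_le_phi μ hN hU (hCγ.trans hγ) hCk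
    have h6 : Real.sqrt (ck μ U k) ≤ Real.sqrt (phi μ U N C) := Real.sqrt_le_sqrt h5
    have h7 : (γ.card : ℝ) ^ 3 * 2 ^ (k / 2) ≤ 8 * (γ.card : ℝ) ^ 5 * 2 ^ k := by
      have e1 : (γ.card : ℝ) ^ 3 ≤ (γ.card : ℝ) ^ 5 := pow_le_pow_right₀ hn1 (by norm_num)
      have e2 : (2 : ℝ) ^ (k / 2) ≤ 2 ^ k := pow_le_pow_right₀ (by norm_num) (Nat.div_le_self _ _)
      have e3 : 0 ≤ (γ.card : ℝ) ^ 5 := by positivity
      have e4 : (0 : ℝ) < 2 ^ k := by positivity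
      calc (γ.card : ℝ) ^ 3 * 2 ^ (k / 2) ≤ (γ.card : ℝ) ^ 5 * 2 ^ k :=
            mul_le_mul e1 e2 (by positivity) e3
        _ ≤ 8 * ((γ.card : ℝ) ^ 5 * 2 ^ k) := by
            have := mul_nonneg e3 e4.le
            linarith
        _ = _ := by ring
    have h8 : 0 ≤ σ ^ (γ.card - k / 2) / (D : ℝ) := by positivity
    calc |phig μ U N g a γ| = (D * |phig μ U N g a γ|) / D := by
          field_simp
      _ ≤ ((γ.card : ℝ) ^ 3 * (2 ^ (k / 2) * σ ^ (γ.card - k / 2) *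
            Real.sqrt (ck μ U k) * Real.sqrt (∫ s, g s ^ 2 ∂μ))) / D :=
          div_le_div_of_nonneg_right h4 hD0.le
      _ = ((γ.card : ℝ) ^ 3 * 2 ^ (k / 2)) * (σ ^ (γ.card - k / 2) / D) *
            Real.sqrt (ck μ U k) * Real.sqrt (∫ s, g s ^ 2 ∂μ) := by ring
      _ ≤ (8 * (γ.card : ℝ) ^ 5 * 2 ^ k) * (σ ^ (γ.card - k / 2) / D) *
            Real.sqrt (phi μ U N C) * Real.sqrt (∫ s, g s ^ 2 ∂μ) := by
          gcongr
  · -- `k = 2`
    obtain rfl : k = 2 := by omega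
    obtain ⟨C', hC'γ, hC'k, h4⟩ := phig_two_cyc μ hN hU hn hγ hCγ hCk hgm hg0 ha
    have hC'card : C'.card = 2 := hC'k.2.1
    refine ⟨C', hC'γ, hC'card ▸ hC'k, h4.trans ?_⟩
    rw [hC'card]
    have hκσ : κ ≤ σ / (2 * D) := by
      rw [le_div_iff₀ (by positivity)]
      have := hn.σκ
      linarith
    have h5 : σ ^ (γ.card - 2 / 2) = σ * σ ^ (γ.card - 2) := by
      rw [← pow_succ']
      congr 1
      omega
    rw [h5]
    have h6 : 8 * (γ.card : ℝ) ^ 2 * κ * σ ^ (γ.card - 2) ≤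
        8 * (γ.card : ℝ) ^ 5 * 2 ^ 2 * (σ * σ ^ (γ.card - 2) / D) := by
      have e1 : (γ.card : ℝ) ^ 2 ≤ (γ.card : ℝ) ^ 5 := pow_le_pow_right₀ hn1 (by norm_num)
      have e2 : 0 ≤ σ / (2 * (D : ℝ)) := by positivity
      calc 8 * (γ.card : ℝ) ^ 2 * κ * σ ^ (γ.card - 2) ≤
            8 * (γ.card : ℝ) ^ 5 * (σ / (2 * D)) * σ ^ (γ.card - 2) := by
            have e3 : (γ.card : ℝ) ^ 2 * κ ≤ (γ.card : ℝ) ^ 5 * (σ / (2 * D)) :=
              mul_le_mul e1 hκσ hU.κ0 (by positivity)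
            have e4 : 0 ≤ σ ^ (γ.card - 2) := by positivity
            have := mul_le_mul_of_nonneg_right e3 e4
            nlinarith
        _ ≤ _ := by
            have e5 : 8 * (γ.card : ℝ) ^ 5 * (σ / (2 * D)) * σ ^ (γ.card - 2) =
                4 * (γ.card : ℝ) ^ 5 * (σ * σ ^ (γ.card - 2) / D) := by
              field_simp
              ring
            rw [e5]
            have e6 : 0 ≤ (γ.card : ℝ) ^ 5 * (σ * σ ^ (γ.card - 2) / D) := by positivity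
            nlinarith
    gcongr

/-- phase 2: the estimate of the marginals -/
theorem marg_le2 {N : V → Finset V} {B : Finset V} {D : ℕ} (hN : Bip N B D) (hU : Ker μ U κ η)
    {σ : ℝ} (hn : Num D κ η σ) (hσ : 0 < σ) (hσD : σ * (10 ^ 11 * (D : ℝ) ^ 2) ≤ 1)
    {g : Ω → ℝ} (hgm : BM g) (hg0 : ∫ s, g s ∂μ = 0) :
    ∑ a ∈ univ \ B, D * (ZZg μ U N g a B / ZZ μ U N B) ^ 2 ≤
      1 / 4 * GG2 μ U N B (2 * σ * ((D:ℝ) ^ 2 + 1)) * ∫ s, g s ^ 2 ∂μ :=
  marg_le2_of μ hN hU hn hσ hσD hgm hg0 (polyBdg μ hN hU hn hσ hgm hg0)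

end Vale.Agent.P050.Dense
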